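import Crest.Agent.R213.ShDefs
import Crest.Agent.R74.Brouwer

/-!
# R213 / ShCol : collar lemma (Brouwer)
-/

set_option autoImplicit false

open Set Filter Topology
open scoped ContDiff

noncomputable section

namespace Crest.Agent.R213.Sh

/-- For `ζ` put `P ζ = (max 1 ‖ζ‖)⁻¹ • ζ`, `S ζ = z1 - (z1 - z0) * min 1 (max 0 (‖ζ‖ - 1))`, `g ζ = x (S ζ) (P ζ)`.
If `x z1 ξ ≠ 0` on the unit ball then `g` has no zero; `h ζ = -(2/‖g ζ‖) • g ζ` is continuous and bounded, so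
`R74.brouwer` gives `ζ = h ζ`, `‖ζ‖ = 2`, `g ζ = -λ ζ` with `λ > 0`, while `‖g ζ - ζ/2‖ ≤ 1/2`. -/
theorem collar (x : ℝ → (Fin 2 → ℝ) → Fin 2 → ℝ) {z0 z1 : ℝ} (h01 : z0 ≤ z1)
    (hc : ContinuousOn (Function.uncurry x) (Icc z0 z1 ×ˢ univ))
    (hB1 : ∀ z ∈ Icc z0 z1, ∀ ξ, ‖ξ‖ = 1 → x z ξ ≠ 0)
    (hB2 : ∀ ξ, ‖ξ‖ ≤ 1 → ‖x z0 ξ - ξ‖ ≤ 1 / 2) : ∃ ξ, ‖ξ‖ ≤ 1 ∧ x z1 ξ = 0 := by
  by_contra hne
  push Not at hne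
  have hm : ∀ ζ : Fin 2 → ℝ, 0 < max 1 ‖ζ‖ := fun ζ => lt_max_of_lt_left one_pos
  have hS : ∀ ζ : Fin 2 → ℝ, z1 - (z1 - z0) * min 1 (max 0 (‖ζ‖ - 1)) ∈ Icc z0 z1 := fun ζ => by
    have h1 : 0 ≤ min 1 (max 0 (‖ζ‖ - 1)) := le_min zero_le_one (le_max_left _ _)
    have h2 : min 1 (max 0 (‖ζ‖ - 1)) ≤ 1 := min_le_left _ _
    constructor <;> nlinarith
  set g : (Fin 2 → ℝ) → Fin 2 → ℝ := fun ζ =>
    x (z1 - (z1 - z0) * min 1 (max 0 (‖ζ‖ - 1))) ((max 1 ‖ζ‖)⁻¹ • ζ) with hg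
  have hgc : Continuous g := hc.comp_continuous
    (f := fun ζ : Fin 2 → ℝ => (z1 - (z1 - z0) * min 1 (max 0 (‖ζ‖ - 1)), (max 1 ‖ζ‖)⁻¹ • ζ))
    (Continuous.prodMk (by fun_prop)
      (Continuous.smul (Continuous.inv₀ (by fun_prop) fun ζ => (hm ζ).ne') continuous_id))
    fun ζ => ⟨hS ζ, mem_univ _⟩
  have hg0 : ∀ ζ, g ζ ≠ 0 := fun ζ => by
    rcases le_total ‖ζ‖ 1 with h | h
    · simpa [hg, max_eq_left h, max_eq_left (sub_nonpos.2 h)] using hne ζ h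
    · refine hB1 _ (hS ζ) _ ?_
      rw [max_eq_right h, norm_smul, norm_inv, norm_norm, inv_mul_cancel₀ (by linarith)]
  have hn : ∀ ζ, ‖-(2 / ‖g ζ‖) • g ζ‖ = 2 := fun ζ => by
    rw [norm_smul, norm_neg, norm_div, norm_norm, div_mul_cancel₀ _ (norm_ne_zero_iff.2 (hg0 ζ))]
    simp
  obtain ⟨ζ, hζ⟩ := R74.brouwer (h := fun ζ => -(2 / ‖g ζ‖) • g ζ) (C := 2)
    (Continuous.smul (Continuous.neg (continuous_const.div hgc.norm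
      fun ζ => norm_ne_zero_iff.2 (hg0 ζ))) hgc) fun ζ => (hn ζ).le
  have h2 : ‖ζ‖ = 2 := by rw [← hn ζ]; exact congrArg _ hζ.symm
  have h3 : g ζ = x z0 ((2 : ℝ)⁻¹ • ζ) := by
    simp only [hg, h2]
    norm_num
  have h4 := hB2 ((2 : ℝ)⁻¹ • ζ) (by rw [norm_smul, h2]; norm_num)
  have h5 := norm_pos_iff.2 (hg0 ζ)
  have h6 : g ζ - (2 : ℝ)⁻¹ • ζ = (1 + ‖g ζ‖⁻¹) • g ζ := by
    conv_lhs => enter [2, 2]; rw [← hζ]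
    rw [smul_smul, add_smul, one_smul, sub_eq_add_neg, ← neg_smul]
    congr 2
    ring
  rw [← h3, h6, norm_smul, Real.norm_of_nonneg (by positivity), add_mul,
    inv_mul_cancel₀ h5.ne'] at h4
  linarith

/-- nested compact sets (`IsCompact.nonempty_iInter_of_sequence_nonempty_isCompact_isClosed`). -/
theorem nested (f : ℝ → (Fin 2 → ℝ) → ℝ) (r : ℝ) (hc : ∀ z, 5 ≤ z → Continuous (f z))
    (h : ∀ S, 5 ≤ S → ∃ ξ, ‖ξ‖ ≤ 1 ∧ ∀ z ∈ Icc 5 S, |f z ξ| ≤ r) :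
    ∃ ξ, ‖ξ‖ ≤ 1 ∧ ∀ z, 5 ≤ z → |f z ξ| ≤ r := by
  have hcl : ∀ n : ℕ, IsClosed {ξ : Fin 2 → ℝ | ‖ξ‖ ≤ 1 ∧ ∀ z ∈ Icc (5 : ℝ) (5 + n), |f z ξ| ≤ r} :=
    fun n => by
      simp only [ofPred_and, ofPred_forall]
      exact (isClosed_le continuous_norm continuous_const).inter
        (isClosed_iInter fun z => isClosed_iInter fun hz =>
          isClosed_le (hc z hz.1).abs continuous_const)
  obtain ⟨ξ, hξ⟩ := IsCompact.nonempty_iInter_of_sequence_nonempty_isCompact_isClosed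
    (fun n : ℕ => {ξ : Fin 2 → ℝ | ‖ξ‖ ≤ 1 ∧ ∀ z ∈ Icc (5 : ℝ) (5 + n), |f z ξ| ≤ r})
    (fun n ξ hξ => ⟨hξ.1, fun z hz => hξ.2 z ⟨hz.1, hz.2.trans (by push_cast; linarith)⟩⟩)
    (fun n => h _ (le_add_of_nonneg_right n.cast_nonneg))
    ((isCompact_closedBall (0 : Fin 2 → ℝ) 1).of_isClosed_subset (hcl 0)
      fun ξ hξ => mem_closedBall_zero_iff.2 hξ.1) hcl
  rw [mem_iInter] at hξ
  exact ⟨ξ, (hξ 0).1, fun z hz => (hξ ⌈z⌉₊).2 z ⟨hz, by linarith [Nat.le_ceil z]⟩⟩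

end Crest.Agent.R213.Sh
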