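import Crest.Agent.R213.ShSt2
import Crest.Agent.R213.ShVol
import Crest.Agent.R213.ShCol

/-!
# R213 / ShRaw : existence of a continuous solution
-/

set_option autoImplicit false

open Set Filter Topology
open scoped ContDiff

noncomputable section

namespace Crest.Agent.R213.Sh

theorem sr_rho_pos : 0 < rho := by unfold rho; positivity

theorem sr_par_cont (K : Cert) : Continuous K.par := by
  unfold Cert.par; fun_prop

theorem sr_family (K : Cert) : ∃ w : (Fin 2 → ℝ) → ℝ → ℝ, Continuous (Function.uncurry w) ∧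
    ∀ ξ, K.Sol (K.par ξ) (w ξ) := by
  obtain ⟨w, hw, he⟩ := vol_exists (fun s g => psi (K.Gc s) g) (psi_cont K.Gc_cont fun s => (K.Gc_bd s).1)
    (L := 33) (C := 100) (by norm_num) (fun s g g' => psi_lip' (K.Gc_bd s).1 g g')
    (fun s => psi_bd (K.Gc_bd s).1 (K.Gc_bd s).2)
  exact ⟨fun ξ => w (K.par ξ), hw.comp ((sr_par_cont K).prodMap continuous_id),
    fun ξ => ⟨hw.uncurry_left _, he _⟩⟩

theorem sr_ch_cont (K : Cert) {w : (Fin 2 → ℝ) → ℝ → ℝ} (hw : Continuous (Function.uncurry w)) :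
    Continuous (fun q : (Fin 2 → ℝ) × ℝ => (K.ch (K.par q.1) (w q.1)).u q.2) ∧
    Continuous (fun q : (Fin 2 → ℝ) × ℝ => (K.ch (K.par q.1) (w q.1)).a q.2) ∧
    Continuous (fun q : (Fin 2 → ℝ) × ℝ => (K.ch (K.par q.1) (w q.1)).H q.2) :=
  vch_cont_param (a := fun ξ => (K.par ξ).1) (F := fun ξ s => psi (K.Gc s) (1 + w ξ s) - (K.par ξ).2)
    (sr_par_cont K).fst
    (((psi_cont K.Gc_cont fun s => (K.Gc_bd s).1).comp (continuous_snd.prodMk (continuous_const.add hw))).sub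
      ((sr_par_cont K).snd.comp continuous_fst))

theorem sr_comb {S : ℝ} {c : (Fin 2 → ℝ) × ℝ → ℝ} (hc : Continuous c) {W Q : ℝ → ℝ}
    (hW : ContinuousOn W (Icc 0 (S ^ 3))) (hQ : ContinuousOn Q (Icc 125 (S ^ 3))) {b : (Fin 2 → ℝ) → ℝ}
    (hb : Continuous b) :
    ContinuousOn (fun q : ℝ × (Fin 2 → ℝ) => c (q.2, q.1 ^ 3) + (-1) * W (q.1 ^ 3) + b q.2 * Q (q.1 ^ 3))
      (Icc 5 S ×ˢ univ) := by
  have h3 : Continuous fun q : ℝ × (Fin 2 → ℝ) => q.1 ^ 3 := by fun_prop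
  have hm : ∀ q : ℝ × (Fin 2 → ℝ), q ∈ Icc 5 S ×ˢ (univ : Set (Fin 2 → ℝ)) → q.1 ^ 3 ∈ Icc 125 (S ^ 3) := by
    intro q hq
    obtain ⟨⟨h1, h2⟩, -⟩ := hq
    exact ⟨(by norm_num : (125 : ℝ) = 5 ^ 3).le.trans (pow_le_pow_left₀ (by norm_num) h1 3),
      pow_le_pow_left₀ (by linarith) h2 3⟩
  refine (((hc.comp (continuous_snd.prodMk h3)).continuousOn).add (continuousOn_const.mul
    (hW.comp h3.continuousOn fun q hq => ⟨by linarith [(hm q hq).1], (hm q hq).2⟩))).add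
    ((hb.comp continuous_snd).continuousOn.mul (hQ.comp h3.continuousOn hm))

theorem sr_D2_cont (K : Cert) {w : (Fin 2 → ℝ) → ℝ → ℝ} (hw : Continuous (Function.uncurry w)) (S : ℝ) :
    ContinuousOn (fun q : ℝ × (Fin 2 → ℝ) => (K.D2 q.2 (w q.2)).x0 q.1) (Icc 5 S ×ˢ univ) ∧
    ContinuousOn (fun q : ℝ × (Fin 2 → ℝ) => (K.D2 q.2 (w q.2)).x1 q.1) (Icc 5 S ×ˢ univ) ∧
    ContinuousOn (fun q : ℝ × (Fin 2 → ℝ) => (K.D2 q.2 (w q.2)).x2 q.1) (Icc 5 S ×ˢ univ) := by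
  obtain ⟨hu, ha, hH⟩ := sr_ch_cont K hw
  have hb : Continuous fun ξ : Fin 2 → ℝ => -(rho * (ξ 0 * K.β1 + ξ 1 * K.β2)) := by fun_prop
  have h3 : Continuous fun q : ℝ × (Fin 2 → ℝ) => q.1 ^ 3 := by fun_prop
  refine ⟨h3.continuousOn.mul (sr_comb hu (K.chW _).cu (K.chQ _).cu hb),
    continuous_fst.continuousOn.mul (sr_comb ha (K.chW _).ca (K.chQ _).ca hb),
    (sr_comb hH (K.chW _).cH (K.chQ _).cH hb).div continuous_fst.continuousOn fun q hq => ?_⟩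
  have := hq.1.1
  exact ne_of_gt (by linarith)

theorem sr_beta {ξ : Fin 2 → ℝ} (hξ : ‖ξ‖ ≤ 1) {a b : ℝ} (h : |a| ≤ 4 ∧ |b| ≤ 4) :
    |rho * (ξ 0 * a + ξ 1 * b)| ≤ 8 * rho := by
  have h0 : |ξ 0| ≤ 1 := (norm_le_pi_norm ξ 0).trans hξ
  have h1 : |ξ 1| ≤ 1 := (norm_le_pi_norm ξ 1).trans hξ
  have e0 : |ξ 0 * a| ≤ 1 * 4 := by
    rw [abs_mul]; exact mul_le_mul h0 h.1 (abs_nonneg _) zero_le_one
  have e1 : |ξ 1 * b| ≤ 1 * 4 := by
    rw [abs_mul]; exact mul_le_mul h1 h.2 (abs_nonneg _) zero_le_one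
  have e2 := abs_add_le (ξ 0 * a) (ξ 1 * b)
  rw [abs_mul, abs_of_pos sr_rho_pos, mul_comm]
  exact mul_le_mul_of_nonneg_right (by linarith) sr_rho_pos.le

theorem sr_scale {t x : ℝ} (h : |t - rho * x| ≤ rho / 100) : |rho⁻¹ * t - x| ≤ 1 / 2 := by
  have hr := sr_rho_pos
  have e : rho⁻¹ * t - x = (t - rho * x) / rho := by field_simp
  rw [e, abs_div, abs_of_pos hr, div_le_iff₀ hr]
  linarith

/-- `vol_exists` with `ψ s g = psi (K.Gc s) g` gives `w p`; `x z ξ = ρ⁻¹ • ![x0+x1, x1+x2]` for `K.D2 ξ (w (K.par ξ))`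
is jointly continuous on `Icc 5 S ×ˢ univ` (`vch_cont_param`, `chW`, `chQ`); `collar` (with `st1_end`, `st2_ne`),
`st2_bd`, `nested`. -/
theorem exists_tube (K : Cert) : ∃ (ξ : Fin 2 → ℝ) (w : ℝ → ℝ), ‖ξ‖ ≤ 1 ∧ K.Sol (K.par ξ) w ∧
    ∀ z, 5 ≤ z → |(K.D2 ξ w).x0 z| ≤ rho := by
  obtain ⟨w, hw, hs⟩ := sr_family K
  have hr := sr_rho_pos
  obtain ⟨ξ, hξ, h⟩ := nested (fun z ξ => (K.D2 ξ (w ξ)).x0 z) rho (fun z hz => by
      have := (sr_D2_cont K hw z).1.comp_continuous (f := fun ξ : Fin 2 → ℝ => (z, ξ)) (by fun_prop)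
        fun ξ => ⟨⟨hz, le_rfl⟩, mem_univ _⟩
      exact this) fun S hS => by
    obtain ⟨c0, c1, c2⟩ := sr_D2_cont K hw S
    obtain ⟨ξ, hξ, h⟩ := collar (fun z ξ => ![rho⁻¹ * ((K.D2 ξ (w ξ)).x0 z + (K.D2 ξ (w ξ)).x1 z),
        rho⁻¹ * ((K.D2 ξ (w ξ)).x1 z + (K.D2 ξ (w ξ)).x2 z)]) hS
      (by
        refine continuousOn_pi.2 fun i => ?_
        fin_cases i
        · exact continuousOn_const.mul (c0.add c1)
        · exact continuousOn_const.mul (c1.add c2))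
      (fun z hz ξ hξ h0 => by
        have e0 := congrFun h0 0
        have e1 := congrFun h0 1
        simp only [Matrix.cons_val_zero, Matrix.cons_val_one, Pi.zero_apply, mul_eq_zero, inv_eq_zero, hr.ne',
          false_or] at e0 e1
        exact st2_ne K hξ (hs ξ) hz.1 ⟨e0, e1⟩)
      (fun ξ hξ => by
        obtain ⟨e0, e1, -⟩ := st1_end K hξ (hs ξ)
        refine (pi_norm_le_iff_of_nonneg (by norm_num)).2 fun i => ?_
        fin_cases i
        · exact sr_scale e0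
        · exact sr_scale e1)
    have e0 := congrFun h 0
    have e1 := congrFun h 1
    simp only [Matrix.cons_val_zero, Matrix.cons_val_one, Pi.zero_apply, mul_eq_zero, inv_eq_zero, hr.ne',
      false_or] at e0 e1
    exact ⟨ξ, hξ, st2_bd K hξ (hs ξ) hS e0 e1⟩
  exact ⟨ξ, w ξ, hξ, hs ξ, h⟩

/-- `|w y - y W.u y| ≤ eta` for all `y ≥ 0` (`st1_tube`; for `y = z³ ≥ 125`: `w - y W.u = D2.x0 z + β y Q.u`, at most `17ρ`),
so `psi (K.Gc s) (1 + w s) = 1/(2(1 + w s))` for `s ≥ 0` (`psi_eq`, `vch_congr`). -/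
theorem raw_of_cert (K : Cert) : Nonempty Raw := by
  obtain ⟨ξ, w, hξ, hs, h⟩ := exists_tube K
  have hr := sr_rho_pos
  have hr2 : 17 * rho ≤ 1 / 100000 := by unfold rho; norm_num
  have hβ := sr_beta hξ K.hβ
  have hα := sr_beta hξ K.hα
  have tube : ∀ y, 0 ≤ y → |w y - y * K.W.u y| ≤ eta := by
    intro y hy
    rcases lt_or_ge y 125 with h1 | h1
    · exact st1_tube K hξ hs y ⟨hy, h1⟩
    · obtain ⟨z, hz, rfl⟩ : ∃ z : ℝ, 5 ≤ z ∧ z ^ 3 = y := by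
        refine ⟨y ^ ((3 : ℕ) : ℝ)⁻¹, ?_, Real.rpow_inv_natCast_pow hy (by norm_num)⟩
        refine le_of_pow_le_pow_left₀ (n := 3) (by norm_num) (Real.rpow_nonneg hy _) ?_
        rw [Real.rpow_inv_natCast_pow hy (by norm_num)]
        linarith
      have hq : |z ^ 3 * K.Q.u (z ^ 3)| ≤ 2 := (K.s2 _ h1).2.2.2.2
      have e : w (z ^ 3) - z ^ 3 * K.W.u (z ^ 3) =
          (K.D2 ξ w).x0 z + rho * (ξ 0 * K.β1 + ξ 1 * K.β2) * (z ^ 3 * K.Q.u (z ^ 3)) := by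
        have e1 : w (z ^ 3) = z ^ 3 * (K.ch (K.par ξ) w).u (z ^ 3) := hs.2 _
        simp only [Cert.D2, Ch.x0, Ch.lin]
        rw [e1]
        ring
      have h2 : |rho * (ξ 0 * K.β1 + ξ 1 * K.β2) * (z ^ 3 * K.Q.u (z ^ 3))| ≤ 8 * rho * 2 := by
        rw [abs_mul]
        exact mul_le_mul hβ hq (abs_nonneg _) (by positivity)
      rw [e]
      refine (abs_add_le _ _).trans ?_
      have := h z hz
      unfold eta
      linarith
  have he : eta = 1 / 2000 := rfl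
  refine ⟨⟨(K.par ξ).1, (K.par ξ).2, w, hs.1, ?_, ?_, fun y hy => ?_, fun y hy => ?_, fun y hy => ?_⟩⟩
  · have := K.ha0
    have := (abs_le.1 hα).2
    simp only [Cert.par]
    linarith
  · have := K.hc0
    have := abs_le.1 hβ
    simp only [Cert.par]
    constructor <;> linarith [this.1, this.2, K.hc0.1, K.hc0.2]
  · have h1 := abs_le.1 (tube y hy)
    have h2 := K.Gc_bd y
    rw [K.Gc_eq hy, Ch.G] at h2
    constructor <;> linarith [h1.1, h1.2, h2.1, h2.2]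
  · have h1 := abs_le.1 (tube y (by linarith))
    have h2 := (K.s2 y hy).1
    have h3 := (K.s2 y hy).2.1
    rw [Ch.G] at h2 h3
    constructor <;> linarith [h1.1, h1.2]
  · have hc : EqOn (fun s => psi (K.Gc s) (1 + w s) - (K.par ξ).2) (fun s => 1 / (2 * (1 + w s)) - (K.par ξ).2)
        (Icc 0 y) := fun s hs' => by
      have h1 : |1 + w s - K.Gc s| ≤ eta := by
        rw [K.Gc_eq hs'.1, Ch.G]
        have := tube s hs'.1
        rwa [show 1 + w s - (1 + s * K.W.u s) = w s - s * K.W.u s by ring]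
      simp only [psi_eq h1]
    rw [← (vch_congr _ hy hc).1]
    exact hs.2 y

end Crest.Agent.R213.Sh
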