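import Crest.Agent.R213.Defs
import Crest.Agent.R213.ShCert
import Crest.Agent.R213.ShRaw
import Crest.Agent.R213.ShFin

/-! # R213 / IShr : existence of the shrinker (validated numerics) -/

set_option autoImplicit false

open MeasureTheory Set Filter Topology
open scoped ContDiff InnerProductSpace

namespace Crest.Agent.R213

theorem shr_exists : Nonempty Shr := by
  obtain ⟨K⟩ := Sh.cert_exists
  obtain ⟨R⟩ := Sh.raw_of_cert K
  exact Sh.shr_of_raw R

end Crest.Agent.R213
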