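import Mathlib

/-!
# R213 / ShDefs : definitions for the existence proof of the shrinker (FROZEN)

`G = 1 + w`, `w = y u`.  With `θ = y d/dy` the equation is `(θ-1)(θ+9)(θ+10) w = y² F`, `F = 1/(2G) - c`.
A *chain* is `(u, a, H, F)` with `a = (θ+11)u`, `H = (θ+10)a`, `H' = F` (right derivatives).
`vch a F` is the chain with `u 0 = a` and right-hand side `F` (Volterra operator with a positive kernel).
`Cert` : piecewise polynomial approximate solutions (checked by the kernel in `ShC*.lean`).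
`Sys` : the first order system for `(V0, V1/z², V2/z⁴)·zⁿ`, `y = z³`, `V0 = y u, V1 = y a, V2 = y H`.
-/

set_option autoImplicit false

open Set

noncomputable section

namespace Crest.Agent.R213.Sh

structure Ch where
  u : ℝ → ℝ
  a : ℝ → ℝ
  H : ℝ → ℝ
  F : ℝ → ℝ

structure IsCh (c : Ch) (lo hi : ℝ) : Prop where
  cu : ContinuousOn c.u (Icc lo hi)
  ca : ContinuousOn c.a (Icc lo hi)
  cH : ContinuousOn c.H (Icc lo hi)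
  du : ∀ y ∈ Ico lo hi, HasDerivWithinAt (fun t => t ^ 11 * c.u t) (y ^ 10 * c.a y) (Ici y) y
  da : ∀ y ∈ Ico lo hi, HasDerivWithinAt (fun t => t ^ 10 * c.a t) (y ^ 9 * c.H y) (Ici y) y
  dH : ∀ y ∈ Ico lo hi, HasDerivWithinAt c.H (c.F y) (Ici y) y

/-- `c + t d` -/
def Ch.lin (c : Ch) (t : ℝ) (d : Ch) : Ch :=
  ⟨fun y => c.u y + t * d.u y, fun y => c.a y + t * d.a y, fun y => c.H y + t * d.H y,
    fun y => c.F y + t * d.F y⟩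

/-- `c` on `(-∞, b)`, `d` on `[b, ∞)` -/
def Ch.glue (c : Ch) (b : ℝ) (d : Ch) : Ch :=
  ⟨fun y => if y < b then c.u y else d.u y, fun y => if y < b then c.a y else d.a y,
    fun y => if y < b then c.H y else d.H y, fun y => if y < b then c.F y else d.F y⟩

def Ch.G (c : Ch) (y : ℝ) : ℝ := 1 + y * c.u y

/-- the scaled state at `y = z³` -/
def Ch.x0 (c : Ch) (z : ℝ) : ℝ := z ^ 3 * c.u (z ^ 3)
def Ch.x1 (c : Ch) (z : ℝ) : ℝ := z * c.a (z ^ 3)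
def Ch.x2 (c : Ch) (z : ℝ) : ℝ := c.H (z ^ 3) / z

def J (m : ℕ) (F : ℝ → ℝ) (y : ℝ) : ℝ := ∫ t in (0 : ℝ)..1, t ^ m * F (y * t)

def vch (a : ℝ) (F : ℝ → ℝ) : Ch :=
  ⟨fun y => a + y * (J 0 F y / 110 - J 10 F y / 10 + J 11 F y / 11),
    fun y => 11 * a + y * (J 0 F y - J 10 F y) / 10, fun y => 110 * a + y * J 0 F y, F⟩

/-- tube radius -/
def eta : ℝ := 1 / 2000
/-- size of the parameter box -/
def rho : ℝ := 1 / 2 ^ 70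

def cl (m g : ℝ) : ℝ := max (m - eta) (min g (m + eta))
/-- `1/(2g)` near `g = m`, continued linearly -/
def psi (m g : ℝ) : ℝ := 1 / (2 * cl m g) - (g - cl m g) / (2 * m ^ 2)

/-- residual of the nonlinear equation -/
def ResW (W : Ch) (c ε y : ℝ) : Prop := |1 / (2 * W.G y) - c - W.F y| ≤ ε
/-- residual of the linearised equation, and a bound -/
def ResL (W P : Ch) (β ε B y : ℝ) : Prop :=
  |-(y * P.u y) / (2 * W.G y ^ 2) - β - P.F y| ≤ ε ∧ |y * P.u y| ≤ B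
/-- supersolution -/
def SupM (W M : Ch) (y : ℝ) : Prop :=
  0 < M.u y ∧ y * M.u y ≤ 2 ^ 42 ∧ 5 / 4 * (101 / 100 * (y * M.u y) / (2 * W.G y ^ 2) + 1) ≤ M.F y

/-- pointwise property on `[0,125)` -/
def Pt1 (W P1 P2 M : Ch) (c β1 β2 y : ℝ) : Prop :=
  1 / 8 ≤ W.G y ∧ W.G y ≤ 2 ∧ ResW W c (1 / 2 ^ 123) y ∧ ResL W P1 β1 (1 / 2 ^ 54) 8 y ∧
    ResL W P2 β2 (1 / 2 ^ 54) 8 y ∧ SupM W M y

/-- pointwise property on `[125,∞)` -/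
def Pt2 (W Q : Ch) (c y : ℝ) : Prop :=
  71 / 100 ≤ W.G y ∧ W.G y ≤ 716 / 1000 ∧ ResW W c (1 / 2 ^ 80) y ∧ ResL W Q 1 (1 / 2 ^ 14) 2 y

structure Cert where
  W : Ch
  P1 : Ch
  P2 : Ch
  M : Ch
  Q : Ch
  a0 : ℝ
  c0 : ℝ
  α1 : ℝ
  α2 : ℝ
  β1 : ℝ
  β2 : ℝ
  chW : ∀ S, IsCh W 0 S
  chP1 : IsCh P1 0 125
  chP2 : IsCh P2 0 125
  chM : IsCh M 0 125
  chQ : ∀ S, IsCh Q 125 S
  W0 : W.H 0 = 110 * a0
  P10 : P1.H 0 = 110 * α1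
  P20 : P2.H 0 = 110 * α2
  M0 : 0 ≤ M.H 0
  ha0 : a0 ≤ -1 / 10
  hc0 : 7002 / 10000 ≤ c0 ∧ c0 ≤ 7004 / 10000
  hα : |α1| ≤ 4 ∧ |α2| ≤ 4
  hβ : |β1| ≤ 4 ∧ |β2| ≤ 4
  s1 : ∀ y ∈ Ico (0 : ℝ) 125, Pt1 W P1 P2 M c0 β1 β2 y
  s2 : ∀ y, 125 ≤ y → Pt2 W Q c0 y
  eM : M.x0 5 ≤ 2 ^ 42 ∧ M.x1 5 ≤ 2 ^ 42 ∧ M.x2 5 ≤ 2 ^ 42
  e11 : |(P1.lin (-β1) Q).x0 5 + (P1.lin (-β1) Q).x1 5 - 1| ≤ 1 / 1000
  e12 : |(P1.lin (-β1) Q).x1 5 + (P1.lin (-β1) Q).x2 5| ≤ 1 / 1000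
  e21 : |(P2.lin (-β2) Q).x0 5 + (P2.lin (-β2) Q).x1 5| ≤ 1 / 1000
  e22 : |(P2.lin (-β2) Q).x1 5 + (P2.lin (-β2) Q).x2 5 - 1| ≤ 1 / 1000
  es : |(P1.lin (-β1) Q).x0 5 - (P1.lin (-β1) Q).x1 5 + (P1.lin (-β1) Q).x2 5| +
    |(P2.lin (-β2) Q).x0 5 - (P2.lin (-β2) Q).x1 5 + (P2.lin (-β2) Q).x2 5| ≤ 1

/-- centre of the tube -/
def Cert.Gc (K : Cert) (s : ℝ) : ℝ := K.W.G (max s 0)
/-- the parameters `(a, c)` -/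
def Cert.par (K : Cert) (ξ : Fin 2 → ℝ) : ℝ × ℝ :=
  (K.a0 + rho * (ξ 0 * K.α1 + ξ 1 * K.α2), K.c0 + rho * (ξ 0 * K.β1 + ξ 1 * K.β2))
/-- `w` solves the cut-off Volterra equation with parameters `p` -/
def Cert.Sol (K : Cert) (p : ℝ × ℝ) (w : ℝ → ℝ) : Prop :=
  Continuous w ∧ ∀ y, w y = y * (vch p.1 (fun s => psi (K.Gc s) (1 + w s) - p.2)).u y
/-- the chain of such a solution -/
def Cert.ch (K : Cert) (p : ℝ × ℝ) (w : ℝ → ℝ) : Ch :=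
  vch p.1 (fun s => psi (K.Gc s) (1 + w s) - p.2)
/-- difference chain used on `[125, ∞)` -/
def Cert.D2 (K : Cert) (ξ : Fin 2 → ℝ) (w : ℝ → ℝ) : Ch :=
  ((K.ch (K.par ξ) w).lin (-1) K.W).lin (-(rho * (ξ 0 * K.β1 + ξ 1 * K.β2))) K.Q

structure Sys (n E z0 z1 : ℝ) (x0 x1 x2 : ℝ → ℝ) : Prop where
  c0 : ContinuousOn x0 (Icc z0 z1)
  c1 : ContinuousOn x1 (Icc z0 z1)
  c2 : ContinuousOn x2 (Icc z0 z1)
  der : ∀ z ∈ Ico z0 z1, ∃ κ e : ℝ, 97 / 100 ≤ κ ∧ κ ≤ 1 ∧ |e| ≤ E ∧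
    HasDerivWithinAt x0 (3 * z * x1 z + (n - 30) / z * x0 z) (Ici z) z ∧
    HasDerivWithinAt x1 (3 * z * x2 z + (n - 29) / z * x1 z) (Ici z) z ∧
    HasDerivWithinAt x2 (3 * z * (-κ * x0 z + e) + (n - 1) / z * x2 z) (Ici z) z

def Qf (x0 x1 x2 : ℝ) : ℝ := x0 ^ 2 + x1 ^ 2 + x2 ^ 2 - 2 / 3 * (x0 - x1 + x2) ^ 2

/-- `θ = y d/dy` -/
def th (f : ℝ → ℝ) : ℝ → ℝ := fun y => y * deriv f y

/-- a continuous solution on `[0, ∞)` -/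
structure Raw where
  a : ℝ
  c : ℝ
  w : ℝ → ℝ
  cont : Continuous w
  ha : a < 0
  hc : 7 / 10 ≤ c ∧ c ≤ 701 / 1000
  bd : ∀ y, 0 ≤ y → 1 / 10 ≤ 1 + w y ∧ 1 + w y ≤ 3
  bd2 : ∀ y, 125 ≤ y → 709 / 1000 ≤ 1 + w y ∧ 1 + w y ≤ 717 / 1000
  eq : ∀ y, 0 ≤ y → w y = y * (vch a (fun s => 1 / (2 * (1 + w s)) - c)).u y

end Crest.Agent.R213.Sh
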